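import Vale.Agent.P199.Full.Stage
import Vale.Agent.P199.Full.Limit

/-!
P199: Kurosh's problem for division rings has a negative answer.
-/

namespace Vale.Agent.Results.P199.KuroshFalse

theorem result :
    ∃ (F D : Type) (_ : Field F) (_ : DivisionRing D) (_ : Algebra F D) (S : Finset D),
      Algebra.IsAlgebraic F D ∧ Algebra.adjoin F (S : Set D) = ⊤ ∧ ¬ Module.Finite F D ∧
      Algebra.IsAlgebraic (Subring.center D) D ∧
      Algebra.adjoin (Subring.center D) (S : Set D) = ⊤ ∧
      ¬ Module.Finite (Subring.center D) D :=
  Vale.Agent.P199.Full.kurosh_false fun n L w => Vale.Agent.P199.Full.exists_stage n L w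

end Vale.Agent.Results.P199.KuroshFalse
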