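import Vale.Agent.P199.Ultraproduct

/-!
P199: Kurosh's problem holds over uncountable fields having a finite extension without
noncommutative finite-dimensional division algebras.
-/

universe u

namespace Vale.Agent.Results.P199.UncountableVirtual

theorem result :
    (∀ (k E D : Type u) [Field k] [Field E] [Algebra k E] [FiniteDimensional k E] [Uncountable k]
        [DivisionRing D] [Algebra k D] [Algebra.IsAlgebraic k D],
      (∀ (B : Type u) [DivisionRing B] [Algebra E B], FiniteDimensional E B →
          ∀ x y : B, x * y = y * x) →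
      FiniteDimensional (Subring.center D) D ∧
        Module.finrank (Subring.center D) D ≤ Module.finrank k E ^ 2 ∧
        ∀ s : Finset D, FiniteDimensional k (Algebra.adjoin k (s : Set D))) ∧
    (∀ (β : Type u) [Field β] (U : Ultrafilter ℕ) (S : ℕ → Subfield β),
      (U : Filter ℕ) ≤ Filter.cofinite → (∀ i, Finite (S i)) → (∀ i, 2 ^ i ≤ Nat.card (S i)) →
      Uncountable (Vale.Agent.P199.ultraSubfield U S) ∧
        ¬ IsAlgClosed (Vale.Agent.P199.ultraSubfield U S) ∧
        ∀ (D : Type u) [DivisionRing D] [Algebra (Vale.Agent.P199.ultraSubfield U S) D]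
          [Algebra.IsAlgebraic (Vale.Agent.P199.ultraSubfield U S) D],
          ∀ x y : D, x * y = y * x) ∧
    (∃ (β : Type) (_ : Field β) (S : ℕ → Subfield β),
      (∀ i, Finite (S i)) ∧ ∀ i, 2 ^ i ≤ Nat.card (S i)) := by
  refine ⟨fun k E D _ _ _ _ _ _ _ _ hE => Vale.Agent.P199.virtual_kurosh hE,
    fun β _ U S hU hS hcard => ?_, Vale.Agent.P199.exists_finite_subfields⟩
  have : Uncountable (Vale.Agent.P199.ultraSubfield U S) :=
    Vale.Agent.P199.uncountable_ultraSubfield U S hU hS hcard
  exact ⟨this, Vale.Agent.P199.not_isAlgClosed_ultraSubfield U S hS,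
    fun D _ _ _ x y => Vale.Agent.P199.comm_of_commDiv
      (Vale.Agent.P199.commDiv_ultraSubfield U S hS) x y⟩

end Vale.Agent.Results.P199.UncountableVirtual
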